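import Vale.Agent.P011UGB6.Quat
import Vale.Agent.P011UGB4.Defs
import Mathlib.Algebra.QuadraticAlgebra.Basic

/-!
Every plane contains a good vector.
-/

set_option autoImplicit false
set_option linter.all false

namespace Vale.Agent.P011UGB6

open NumberField Vale.Agent.P011.MPQ Vale.Agent.P011.Arith Vale.Agent.P011UGB4
  Vale.Agent.P011UGB4.KS

variable {k A : Type} [Field k] [CharZero k] [Ring A] [Algebra k A]

theorem avg {u v : A} {α β : k} (hα : α ≠ 0) (hβ : β ≠ 0) (hu : u * u = α • 1)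
    (hv : v * v = β • 1) (h : Or u v) (z : A) : ∃ x y, z = x + y * v ∧
      ∀ p, p = u ∨ (z * p = p * z ∧ p * v = v * p ∧ (p * u = u * p ∨ Or p u)) →
        x * p = p * x ∧ y * p = p * y := by
  have hu' : ∀ w, u * (u * w) = α • w := fun w => by rw [← mul_assoc, hu, smul_mul_assoc, one_mul]
  refine ⟨(2 : k)⁻¹ • (z + α⁻¹ • (u * (z * u))), ((2 : k) * β)⁻¹ • ((z - α⁻¹ • (u * (z * u))) * v),
    ?_, ?_⟩
  · simp only [smul_mul_assoc, mul_assoc, hv, mul_smul_comm, mul_one]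
    match_scalars <;> field_simp <;> ring
  · rintro p (rfl | ⟨h1, h2, h3⟩)
    · simp only [smul_mul_assoc, mul_assoc, mul_smul_comm, add_mul, mul_add, sub_mul, mul_sub, hu,
        hu', h.symm.mv, show v * p = -(p * v) from h.symm, mul_neg, mul_one]
      constructor <;> match_scalars <;> field_simp
    · have h4 : u * (z * u) * p = p * (u * (z * u)) := by
        rcases h3 with h3 | h3
        · rw [mul_assoc, mul_assoc, ← h3, ← mul_assoc z, h1, ← mul_assoc p, h3]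
          simp only [mul_assoc]
        · rw [mul_assoc, mul_assoc, h3.symm, h3.mv, mul_neg, ← mul_assoc z, h1, mul_neg, mul_assoc,
            h3.symm.mv, h3.mv, neg_neg]
      simp only [smul_mul_assoc, mul_smul_comm, mul_assoc _ v, ← h2, ← mul_assoc _ _ v, add_mul,
        mul_add, sub_mul, mul_sub, h1, h4, and_self]

variable {S : KS k A} {t s a b c : A}

theorem onto (h : S.F5 t s a b c) (R : Subring A) (hk : ∀ x, algebraMap k A x ∈ R) (hs : s ∈ R)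
    (hI : a * b ∈ R) (hJ : a * c ∈ R) {z : A} (hz : z * s = s * z) : z ∈ R := by
  have f1 : S.F2 a b := ⟨h.mc, h.md, h.nc, h.nd, h.cd⟩
  have f2 : S.F2 a c := ⟨h.mc, h.me, h.nc, h.ne, h.ce⟩
  have qa := q_ne h.mc h.nc
  have n1 := neg_ne_zero.2 (mul_ne_zero qa (q_ne h.md h.nd))
  have n2 := neg_ne_zero.2 (mul_ne_zero qa (q_ne h.me h.ne))
  have sI := h.bc.comm h.bd
  have sJ := h.bc.comm h.be
  have oa : ∀ {x}, Or a x → Or (a * x) a := fun hx => by
    rw [P011UGB4.Or, mul_assoc, hx.symm, mul_neg]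
  have IJ : Or (a * b) (a * c) := by
    rw [P011UGB4.Or, mul_assoc, mul_assoc, h.cd.symm.mv, h.ce.symm.mv, h.de]
    simp only [mul_neg, neg_neg]
  have s4 : ∀ z, z * s = s * z → z * (a * b) = a * b * z → z * (a * c) = a * c * z →
      z * a = a * z → z ∈ R := fun z h1 h2 h3 h4 => by
    have k1 : ∀ x, z * (a * x) = a * x * z → z * x = x * z := fun x hx => by
      have := congrArg (a * ·) hx
      simp only [← mul_assoc z, h4, mul_assoc, sq2 h.mc] at this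
      exact smul_right_injective _ qa this
    obtain ⟨r, r0, hr, -⟩ := h.om
    obtain ⟨x, rfl⟩ := h.cen (smul_right_injective _ r0 (show r • _ = r • _ by
      rw [← mul_smul_comm, ← smul_mul_assoc, ← hr, mul_assoc s, ← mul_assoc a, ← mul_assoc z, h1,
        mul_assoc s, ← mul_assoc z, h2, mul_assoc _ z, k1 c h3]
      simp only [mul_assoc])) h1 h4 (k1 b h2) (k1 c h3)
    exact hk x
  have s3 : ∀ z, z * s = s * z → z * (a * b) = a * b * z → z * (a * c) = a * c * z → z ∈ R :=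
    fun z h1 h2 h3 => by
    obtain ⟨x, y, rfl, e⟩ := avg qa (q_ne h.mb h.nb) (sq1 h.mc) (sq1 h.mb) h.bc.symm z
    have e1 := e s (.inr ⟨h1, rfl, .inr h.bc⟩)
    have e2 := e _ (.inr ⟨h2, sI.symm, .inr (oa h.cd)⟩)
    have e3 := e _ (.inr ⟨h3, sJ.symm, .inr (oa h.ce)⟩)
    have e4 := e a (.inl rfl)
    exact add_mem (s4 x e1.1 e2.1 e3.1 e4.1) (mul_mem (s4 y e1.2 e2.2 e3.2 e4.2) hs)
  have s2 : ∀ z, z * s = s * z → z * (a * b) = a * b * z → z ∈ R := fun z h1 h2 => by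
    obtain ⟨x, y, rfl, e⟩ := avg n2 n1 f2.sq f1.sq IJ.symm z
    have e1 := e s (.inr ⟨h1, sI, .inl sJ⟩)
    have e2 := e _ (.inr ⟨h2, rfl, .inr IJ⟩)
    have e3 := e _ (.inl rfl)
    exact add_mem (s3 x e1.1 e2.1 e3.1) (mul_mem (s3 y e1.2 e2.2 e3.2) hI)
  obtain ⟨x, y, rfl, e⟩ := avg n1 n2 f1.sq f2.sq IJ z
  have e1 := e s (.inr ⟨hz, sJ, .inl sI⟩)
  have e2 := e _ (.inl rfl)
  exact add_mem (s2 x e1.1 e2.1) (mul_mem (s2 y e1.2 e2.2) hJ)

theorem good (nst : P011UE.NST) (h : S.F5 t s a b c) {E : Type} [Field E] [NumberField E]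
    [Algebra k E] (φ : E →ₐ[k] A) (hφ : ∀ x, ∃ p q : k, φ x = p • 1 + q • s) (hs : ∃ θ, φ θ = s)
    (α β : Eˣ) (hα : φ α = -(S.q a * S.q b) • 1) (hβ : φ β = -(S.q a * S.q c) • 1)
    (hr : ∀ w, ¬Ram α β w) : S.Gd s := by
  have f1 : S.F2 a b := ⟨h.mc, h.md, h.nc, h.nd, h.cd⟩
  have f2 : S.F2 a c := ⟨h.mc, h.me, h.nc, h.ne, h.ce⟩
  have c1 : ∀ z, s * z = z * s → ∀ x, φ x * z = z * φ x := fun z hz x => by
    obtain ⟨p, q, e⟩ := hφ x
    rw [e, comb (z := z) ((mul_one z).trans (one_mul z).symm) hz.symm]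
  have cI := c1 _ (h.bc.comm h.bd)
  have cJ := c1 _ (h.bc.comm h.be)
  have JI : a * c * (a * b) = -(a * b * (a * c)) := by
    rw [mul_assoc, mul_assoc, h.cd.symm.mv, h.ce.symm.mv, h.de]
    simp only [mul_neg, neg_neg]
  obtain ⟨Ψ, hΨ⟩ := exists_psi (φ : E →+* A) α β cI cJ (f1.sq.trans hα.symm)
    (f2.sq.trans hβ.symm) JI
  simp only [RingHom.coe_coe] at hΨ
  have s0 : ∀ x, S.st (φ x) = φ x := fun x => by
    obtain ⟨p, q, e⟩ := hφ x
    rw [e, map_add, map_smul, map_smul, S.one, S.sym _ h.mb]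
  have s3 : ∀ z, s * z = z * s → S.st z = -z → ∀ x, S.st (φ x * z) = φ (-x) * z :=
    fun z h1 h2 x => by rw [S.mul, s0, h2, map_neg, neg_mul, neg_mul, c1 z h1]
  have s1 : ∀ x, S.st (Ψ x) = Ψ (star x) := fun x => by
    rw [hΨ, hΨ, map_add, map_add, map_add, s0, s3 _ (h.bc.comm h.bd) f1.st,
      s3 _ (h.bc.comm h.be) f2.st, s3 _ (by
        rw [← mul_assoc, h.bc.comm h.bd, mul_assoc, h.bc.comm h.be, ← mul_assoc])
        (by rw [S.mul, f1.st, f2.st, neg_mul_neg, JI])]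
    simp
  have a1 : ∀ x, Ψ (algebraMap E _ x) = φ x := fun x => by simp [hΨ]
  haveI : Nontrivial A := S.inj.nontrivial
  have i0 : ∀ x, Ψ x = 0 → x.re = 0 := fun x hx => by
    have h1 : Ψ (algebraMap E _ (2 * x.re)) = 0 := by
      rw [show algebraMap E _ (2 * x.re) = x + star x by ext <;> simp [two_mul], map_add, ← s1, hx,
        map_zero, add_zero]
    rw [a1] at h1
    simpa only [map_eq_zero, mul_eq_zero, two_ne_zero, false_or] using h1
  have i1 : Function.Injective Ψ := (injective_iff_map_eq_zero _).2 fun x hx => by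
    have h1 := i0 (x * ⟨0, 1, 0, 0⟩) (by rw [map_mul, hx, zero_mul])
    have h2 := i0 (x * ⟨0, 0, 1, 0⟩) (by rw [map_mul, hx, zero_mul])
    have h3 := i0 (x * ⟨0, 0, 0, 1⟩) (by rw [map_mul, hx, zero_mul])
    simp at h1 h2 h3
    exact QuaternionAlgebra.ext (i0 x hx) h1 h2 h3
  have s2 : ∀ x, S.st (Ψ x) * Ψ x = Ψ (algebraMap E _ (nrd x)) := fun x => by
    rw [s1, ← map_mul, star_mul_eq]
  let ψ : SL1 α β →* S.G := ((Units.map (Ψ : Qt α β →* A)).comp (SL1 α β).subtype).codRestrict _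
    fun g => (s2 g.1.1).trans (by rw [show nrd g.1.1 = 1 from g.2, map_one, map_one])
  have on : ∀ g : S.G, vl g * s = s * vl g → ∃ x, ψ x = g := fun g hg => by
    obtain ⟨θ, hθ⟩ := hs
    obtain ⟨x, hx⟩ := onto h Ψ.range (fun x => ⟨_, (a1 _).trans (φ.commutes x)⟩)
      ⟨_, (a1 θ).trans hθ⟩ ⟨⟨0, 1, 0, 0⟩, by simp [hΨ]⟩ ⟨⟨0, 0, 1, 0⟩, by simp [hΨ]⟩ hg
    have h1 := s2 x
    rw [hx, show S.st (vl g) * vl g = 1 from g.2, ← map_one Ψ, i1.eq_iff, eq_comm,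
      map_eq_one_iff _ (algebraMap E (Qt α β)).injective] at h1
    obtain ⟨y, rfl⟩ := ex_SL h1
    exact ⟨y, vl_ext hx⟩
  refine ⟨h.mb, h.nb, fun N hN m hm h1 h2 g hg => ?_⟩
  obtain ⟨m, rfl⟩ := on m h1
  obtain ⟨g, rfl⟩ := on g hg
  exact simple nst (fun x hx => i1 (S.ani _ (by rw [s2, hx, map_zero, map_zero])
    |>.trans (map_zero _).symm)) hr (hN.comap ψ) hm
    (fun e => h2 1 (show Ψ m.1.1 = _ by rw [e, map_one, map_one]))
    (fun e => h2 (-1) (show Ψ m.1.1 = _ by rw [e, map_neg, map_one, map_neg, map_one])) g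

theorem gd (nst : P011UE.NST) : GD := by
  intro k A _ _ _ _ S u v h
  obtain ⟨a, b, c, f⟩ := h.ext
  obtain ⟨v0⟩ := nonempty_prime (F := k)
  have qa := q_ne f.mc f.nc
  let α := Units.mk0 _ (neg_ne_zero.2 (mul_ne_zero qa (q_ne f.md f.nd)))
  let β := Units.mk0 _ (neg_ne_zero.2 (mul_ne_zero qa (q_ne f.me f.ne)))
  obtain ⟨x, y, hxy⟩ := P011UM5.bin_glob _ (P011UM5.Bad.fin v0 α β) (Units.mk0 _ (q_ne h.ma h.na))
    (Units.mk0 _ (q_ne h.mb h.nb))
  obtain ⟨e, he, h0⟩ := hxy v0 (.inl (.inl (.inl rfl)))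
  have ms : x • u + y • v ∈ S.W := add_mem (S.W.smul_mem _ h.ma) (S.W.smul_mem _ h.mb)
  have qs : S.q (x • u + y • v) = e := by
    rw [P011UM5.q_comb, (or_iff h.ma h.mb).2 h.ab, he, Units.val_mk0, Units.val_mk0]
    ring
  refine ⟨x, y, ?_⟩
  have o : ∀ z, Or u z → Or v z → Or (x • u + y • v) z := fun z h1 h2 =>
    ((h1.symm.smul x).add (h2.symm.smul y)).symm
  have oa := o a f.ac f.bc
  have ob := o b f.ad f.bd
  have oc := o c f.ae f.be
  generalize x • u + y • v = s at *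
  obtain ⟨t, t1, t0, t2, t3, t4, t5⟩ := ex4 ms f.mc f.md f.me
  haveI : Fact (∀ r : k, r ^ 2 ≠ e + 0 * r) := ⟨fun r hr => h0 (Sq_le_LS _ (mem_Sq_iff.mpr
    ⟨r, by rw [← pow_two, hr, zero_mul, add_zero]⟩))⟩
  haveI := NumberField.of_module_finite k (QuadraticAlgebra k (e : k) 0)
  refine good nst ⟨⟨t1, ms, t0, fun c => e.ne_zero (by rw [← qs, c, map_zero]), t2.symm⟩, f.mc, f.md,
    f.me, f.nc, f.nd, f.ne, t3.symm, t4.symm, t5.symm, oa, ob, oc, f.cd, f.ce, f.de⟩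
    (QuadraticAlgebra.lift ⟨s, by rw [sq1 ms, qs, zero_smul, add_zero]⟩ :
      QuadraticAlgebra k (e : k) 0 →ₐ[k] A) (fun z => ⟨z.re, z.im, rfl⟩)
    ⟨QuadraticAlgebra.omega, by simp⟩ _ _
    ((AlgHom.commutes _ (α : k)).trans (Algebra.algebraMap_eq_smul_one _))
    ((AlgHom.commutes _ (β : k)).trans (Algebra.algebraMap_eq_smul_one _))
    (unram v0 α β e (fun w hw => ?_) (θ := QuadraticAlgebra.omega) (by ext <;> simp [pow_two]))
  obtain ⟨e', he', hn⟩ := hxy w hw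
  rwa [show e = e' from Units.ext (he.trans he'.symm)]

end Vale.Agent.P011UGB6
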