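import Vale.Agent.P011UE.Spec
import Vale.Agent.P011.MPQ.Final
import Vale.Agent.P011UM5.Tern
import Mathlib.Algebra.QuaternionBasis

/-!
Quaternion algebras over number fields which are unramified at all the finite places.
-/

set_option autoImplicit false
set_option linter.all false

namespace Vale.Agent.P011UGB6

open NumberField IsDedekindDomain Vale.Agent.P011.MPQ Vale.Agent.P011.Arith
  Vale.Agent.P011.Arith.Sch Vale.Agent.P011UE

section

variable {E : Type} [Field E] {a b : Eˣ}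

theorem star_mul_eq (x : Qt a b) : star x * x = algebraMap E _ (nrd x) := by
  ext <;> simp [nrd, sq] <;> ring

theorem mul_star_eq (x : Qt a b) : x * star x = algebraMap E _ (nrd x) := by
  ext <;> simp [nrd, sq] <;> ring

theorem cen [CharZero E] {x : Qt a b} (h : ∀ y, x * y = y * x) : x = algebraMap E _ x.re := by
  have e1 := congrArg QuaternionAlgebra.imK (h ⟨0, 1, 0, 0⟩)
  have e2 := congrArg QuaternionAlgebra.imJ (h ⟨0, 1, 0, 0⟩)
  have e3 := congrArg QuaternionAlgebra.imK (h ⟨0, 0, 1, 0⟩)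
  have := a.ne_zero
  simp at e1 e2 e3
  ext <;> simp <;> grind

theorem det_eq [CharZero E] {Ω : Type} [Field Ω] [Algebra E Ω]
    (f : Qt a b →ₐ[E] Matrix (Fin 2) (Fin 2) Ω) (x : Qt a b) :
    (f x).det = algebraMap E Ω (nrd x) := by
  have ha := a.ne_zero
  have hb := b.ne_zero
  have c : ∀ y z, (f (y * z - z * y)).trace = 0 := fun y z => by
    rw [map_sub, map_mul, map_mul, Matrix.trace_sub, Matrix.trace_mul_comm, sub_self]
  have e : x = algebraMap E _ x.re + ((⟨0, 1, 0, 0⟩ * ⟨0, 0, x.imK / 2, x.imJ / (2 * a)⟩ -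
      ⟨0, 0, x.imK / 2, x.imJ / (2 * a)⟩ * ⟨0, 1, 0, 0⟩) + (⟨0, 0, 0, x.imI / (2 * b)⟩ * ⟨0, 0, 1, 0⟩ -
      ⟨0, 0, 1, 0⟩ * ⟨0, 0, 0, x.imI / (2 * b)⟩)) := by
    ext <;> simp <;> field_simp <;> ring
  have h1 : (f x).trace = algebraMap E Ω (2 * x.re) := by
    rw [e, map_add, map_add, Matrix.trace_add, Matrix.trace_add, c, c, f.commutes]
    simp [Matrix.trace_fin_two, Matrix.algebraMap_matrix_apply, two_mul]
  have h2 : f (star x) = algebraMap E _ (2 * x.re) - f x := by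
    rw [← f.commutes, ← map_sub]
    congr 1
    ext <;> simp [two_mul]
  have h3 := congrFun (congrFun (congrArg f (mul_star_eq x)) 0) 0
  rw [map_mul, h2, f.commutes] at h3
  rw [Matrix.trace_fin_two] at h1
  simp only [Matrix.mul_apply, Fin.sum_univ_two, Matrix.sub_apply, Matrix.algebraMap_matrix_apply,
    ← h1, if_true, show ¬(1 : Fin 2) = 0 by decide, if_false] at h3
  rw [Matrix.det_fin_two, ← h3]
  ring

/-- units of norm one -/
theorem ex_SL {x : Qt a b} (h : nrd x = 1) : ∃ g : SL1 a b, g.1.1 = x :=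
  ⟨⟨⟨x, star x, by rw [mul_star_eq, h, map_one], by rw [star_mul_eq, h, map_one]⟩, h⟩, rfl⟩

theorem idx (nst : NST) {D : Type} [Ring D] [Nontrivial D] [Algebra E D] [FiniteDimensional E D]
    (hu : ∀ x : D, IsUnit x ∨ x = 0) (hk : P011L.Glob E) (hc : Algebra.IsCentral E D)
    (rk : Module.finrank E D = 2 ^ 2) (N : D →* E) (hN : ∀ (x : D) (Ω : Type) [Field Ω] [Algebra E Ω]
      (f : D →ₐ[E] Matrix (Fin 2) (Fin 2) Ω), (f x).det = algebraMap E Ω (N x)) (H : Subgroup Dˣ)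
    (h1 : H ≤ (Units.map N).ker) (h2 : ∀ g ∈ (Units.map N).ker, ∀ x ∈ H, g * x * g⁻¹ ∈ H)
    (h3 : ∃ x ∈ H, ∃ y : D, (x : D) * y ≠ y * x) : H.relIndex (Units.map N).ker ≠ 0 :=
  letI := DivisionRing.ofIsUnitOrEqZero hu
  nst E D 2 N ⟨hk, hc, le_rfl, rk, hN⟩ H ⟨h1, h2, h3⟩

theorem simple [NumberField E] (nst : NST) (hab : Aniso a b) (hr : ∀ w, ¬Ram a b w)
    {N : Subgroup (SL1 a b)} (hN : N.Normal) {m : SL1 a b} (hm : m ∈ N) (h1 : m.1.1 ≠ 1)
    (h2 : m.1.1 ≠ -1) (g : SL1 a b) : g ∈ N := by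
  let ν : Qt a b →* E := ⟨⟨nrd, nrd_one⟩, nrd_mul⟩
  have e : (Units.map ν).ker = SL1 a b := Subgroup.ext fun _ => Units.ext_iff
  have h := idx nst (fun x : Qt a b => or_iff_not_imp_right.2 fun x0 => by
      have h0 : nrd x ≠ 0 := fun c => x0 (hab x c)
      exact ⟨⟨x, (nrd x)⁻¹ • star x, by
        rw [mul_smul_comm, mul_star_eq, Algebra.smul_def, ← map_mul, inv_mul_cancel₀ h0, map_one], by
        rw [smul_mul_assoc, star_mul_eq, Algebra.smul_def, ← map_mul, inv_mul_cancel₀ h0,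
          map_one]⟩, rfl⟩) (Or.inl inferInstance)
    ⟨fun x hx => ⟨_, (cen fun y => (Subalgebra.mem_center_iff.1 hx y).symm).symm⟩⟩
    (QuaternionAlgebra.finrank_eq_four _ _ _) ν (fun x Ω _ _ f => det_eq f x)
    (N.map (SL1 a b).subtype) ((Subgroup.map_subtype_le N).trans e.ge) (by
      rintro g hg _ ⟨x, hx, rfl⟩
      exact ⟨_, hN.conj_mem x hx ⟨g, e.le hg⟩, rfl⟩) ⟨_, ⟨m, hm, rfl⟩, by
      by_contra c
      push Not at c
      have h3 := cen c
      have h4 : nrd m.1.1 = 1 := m.2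
      change m.1.1 = algebraMap E _ m.1.1.re at h3
      generalize m.1.1.re = t at h3
      rw [h3] at h1 h2 h4
      rcases sq_eq_one_iff.1 (show t ^ 2 = 1 by simpa [nrd] using h4) with rfl | rfl
      · exact h1 (map_one _)
      · exact h2 (by rw [map_neg, map_one])⟩
  rw [e, Subgroup.relIndex, Subgroup.subgroupOf, Subgroup.comap_map_eq_self_of_injective
    (SL1 a b).subtype_injective] at h
  exact mpq a b hab N hN h _ (Nat.pos_of_ne_zero h) N.pow_index_mem g
    fun w hw => absurd hw (hr w)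

end

variable {F E : Type} [Field F] [NumberField F] [Field E] [NumberField E] [Algebra F E]

theorem unram (v0 : HeightOneSpectrum (𝓞 F)) (a b e : Fˣ)
    (heS : ∀ v ∈ P011UM5.Bad v0 a b, e ∉ LS (v.valuation F)) {θ : E}
    (hθ : θ ^ 2 = algebraMap F E e) (w : HeightOneSpectrum (𝓞 E)) :
    ¬Ram (Units.map (algebraMap F E : F →* E) a) (Units.map (algebraMap F E : F →* E) b) w := by
  set ι : Fˣ →* Eˣ := Units.map (algebraMap F E : F →* E) with hι
  have hιv : ∀ u : Fˣ, ((ι u : Eˣ) : E) = algebraMap F E u := fun _ => rfl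
  refine not_not.2 ?_
  obtain ⟨v, hv⟩ := Sch.exists_below (F := F) w
  by_cases hvS : v ∈ P011UM5.Bad v0 a b
  · rcases local_split v a b e (heS v hvS) with h1 | ⟨y, n, l, hn, hl, h1⟩
    · exact sup_map hv h1
    · have h2 : ι (b * n * l) ∈ NF (ι a) := by
        refine ⟨θ, algebraMap F E y, ?_⟩
        have h3 : ((b * n * l : Fˣ) : F) = (e : F) - a * y ^ 2 := by
          rw [h1]; push_cast; ring
        rw [hιv, hθ, hιv, h3]
        simp
      have h3 : ι b = ι (b * n * l) * (ι n)⁻¹ * (ι l)⁻¹ := by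
        rw [map_mul, map_mul, mul_right_comm (ι b * ι n) (ι l) (ι n)⁻¹,
          mul_inv_cancel_right, mul_inv_cancel_right]
      rw [h3]
      exact mul_mem (mul_mem (Subgroup.mem_sup_left h2)
        (inv_mem (Subgroup.mem_sup_left (NF_map hn))))
        (inv_mem (Subgroup.mem_sup_right (LS_map hv hl)))
  · simp only [P011UM5.Bad, Set.mem_union, Set.mem_ofPred_eq, not_or, not_not] at hvS
    refine unit_norm w ?_ _ _ (valuation_one_map hv hvS.1.2) (valuation_one_map hv hvS.2)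
    have := valuation_one_map hv hvS.1.1.2
    rwa [map_ofNat] at this

theorem exists_psi {E A : Type} [Field E] [Ring A] (φ : E →+* A) (a b : Eˣ) {I J : A}
    (hI : ∀ t, φ t * I = I * φ t) (hJ : ∀ t, φ t * J = J * φ t) (h1 : I * I = φ a)
    (h2 : J * J = φ b) (h3 : J * I = -(I * J)) : ∃ Ψ : Qt a b →+* A,
      ∀ x, Ψ x = φ x.re + φ x.imI * I + φ x.imJ * J + φ x.imK * (I * J) := by
  let C := Subring.centralizer (Set.range φ)
  have m : ∀ t, φ t ∈ C := fun t => by
    rintro _ ⟨u, rfl⟩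
    rw [← map_mul, ← map_mul, mul_comm]
  letI : Algebra E C := (φ.codRestrict C m).toAlgebra' fun t x => Subtype.ext (x.2 _ ⟨t, rfl⟩)
  let i : C := ⟨I, by rintro _ ⟨u, rfl⟩; exact hI u⟩
  let j : C := ⟨J, by rintro _ ⟨u, rfl⟩; exact hJ u⟩
  let B : QuaternionAlgebra.Basis C (a : E) 0 (b : E) := ⟨i, j, i * j,
    by rw [zero_smul, add_zero, ← Algebra.algebraMap_eq_smul_one]; exact Subtype.ext h1,
    by rw [← Algebra.algebraMap_eq_smul_one]; exact Subtype.ext h2, rfl,
    by rw [zero_smul, zero_sub]; exact Subtype.ext h3⟩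
  exact ⟨C.subtype.comp B.liftHom.toRingHom, fun x => rfl⟩

end Vale.Agent.P011UGB6
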